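import Vale.Agent.P097.H831.TZMain

/-!
# [EFac] elementary properties of `Et`
(helper831, P097)
-/

open Complex MeasureTheory Set Filter Topology intervalIntegral

namespace Vale.Agent.P097.H831

open Vale.Agent.P097.LR

noncomputable section

variable {b t : ℂ}

/-- numerator -/
def NN (b t : ℂ) : ℂ := jacobiTheta₂ (2 * t + 2 * I * b + 1 / 2) (8 * I * b)

/-- denominator -/
def DD (b t : ℂ) : ℂ := jacobiTheta₂ (2 * t - 2 * I * b + 1 / 2) (8 * I * b)

theorem Et_eq (b t : ℂ) : Et b t = cexp (2 * Real.pi * I * t) * NN b t / DD b t := rfl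

theorem tau_im (b : ℂ) : (8 * I * b).im = 8 * b.re := by simp

theorem tau_pos (hb : 0 < b.re) : 0 < (8 * I * b).im := by rw [tau_im]; linarith

theorem NN_zero_iff (hb : 0 < b.re) : NN b t = 0 ↔ ∃ m n : ℤ, t = (4 * n + 1) * (I * b) + m / 2 := by
  rw [NN, th_zero_iff (tau_pos hb)]
  constructor
  · rintro ⟨m, n, h⟩
    exact ⟨m, n, by linear_combination h / 2⟩
  · rintro ⟨m, n, h⟩
    exact ⟨m, n, by linear_combination 2 * h⟩

theorem DD_zero_iff (hb : 0 < b.re) : DD b t = 0 ↔ ∃ m n : ℤ, t = (4 * n + 3) * (I * b) + m / 2 := by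
  rw [DD, th_zero_iff (tau_pos hb)]
  constructor
  · rintro ⟨m, n, h⟩
    exact ⟨m, n, by linear_combination h / 2⟩
  · rintro ⟨m, n, h⟩
    exact ⟨m, n, by linear_combination 2 * h⟩

theorem im_aux (n m : ℤ) (j : ℝ) : ((4 * (n:ℂ) + (j:ℂ)) * (I * b) + m / 2).im = (4 * n + j) * b.re := by
  have h1 : ((4 * (n:ℂ) + (j:ℂ)) * (I * b) + m / 2)
      = (((4 * (n:ℝ) + j : ℝ)) : ℂ) * (I * b) + (((m:ℝ) / 2 : ℝ) : ℂ) := by push_cast; ring
  rw [h1, add_im, im_ofReal_mul, ofReal_im, add_zero]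
  simp

theorem DD_ne (hb : 0 < b.re) (h1 : -b.re < t.im) (h2 : t.im < 3 * b.re) : DD b t ≠ 0 := by
  rw [Ne, DD_zero_iff hb]
  rintro ⟨m, n, h⟩
  have h3 : t.im = (4 * n + (3:ℝ)) * b.re := by
    rw [h]; have := im_aux (b := b) n m 3; push_cast at this; exact this
  rw [h3] at h1 h2
  have h4 : (-1:ℝ) < 4 * n + 3 := by
    by_contra hcon; push Not at hcon; nlinarith
  have h5 : (4 * n + 3 : ℝ) < 3 := by
    by_contra hcon; push Not at hcon; nlinarith
  have h6 : (-1:ℤ) < 4 * n + 3 := by exact_mod_cast h4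
  have h7 : (4 * n + 3 : ℤ) < 3 := by exact_mod_cast h5
  omega

theorem NN_zero (hb : 0 < b.re) (h1 : -b.re < t.im) (h2 : t.im < 3 * b.re) :
    NN b t = 0 ↔ ∃ k : ℤ, t = I * b + k / 2 := by
  rw [NN_zero_iff hb]
  constructor
  · rintro ⟨m, n, h⟩
    have h3 : t.im = (4 * n + (1:ℝ)) * b.re := by
      rw [h]; have := im_aux (b := b) n m 1; push_cast at this; exact this
    rw [h3] at h1 h2
    have h4 : (-1:ℝ) < 4 * n + 1 := by
      by_contra hcon; push Not at hcon; nlinarith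
    have h5 : (4 * n + 1 : ℝ) < 3 := by
      by_contra hcon; push Not at hcon; nlinarith
    have h6 : (-1:ℤ) < 4 * n + 1 := by exact_mod_cast h4
    have h7 : (4 * n + 1 : ℤ) < 3 := by exact_mod_cast h5
    have h8 : n = 0 := by omega
    subst h8
    exact ⟨m, by rw [h]; push_cast; ring⟩
  · rintro ⟨k, h⟩
    exact ⟨k, 0, by rw [h]; push_cast; ring⟩

theorem NN_ne (hb : 0 < b.re) (h1 : -b.re < t.im) (h2 : t.im < b.re) : NN b t ≠ 0 := by
  rw [Ne, NN_zero hb h1 (by linarith)]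
  rintro ⟨k, h⟩
  have h3 : t.im = b.re := by
    rw [h]; simp
  linarith

theorem NN_neg (b t : ℂ) : NN b (-t) = DD b t := by
  rw [NN, DD, ← jacobiTheta₂_neg_left, ← jacobiTheta₂_add_left]
  congr 1; ring

theorem DD_neg (b t : ℂ) : DD b (-t) = NN b t := by
  rw [NN, DD, ← jacobiTheta₂_neg_left, ← jacobiTheta₂_add_left]
  congr 1; ring

theorem NN_half (b t : ℂ) : NN b (t + 1 / 2) = NN b t := by
  rw [NN, NN, ← jacobiTheta₂_add_left (2 * t + 2 * I * b + 1 / 2)]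
  congr 1; ring

theorem DD_half (b t : ℂ) : DD b (t + 1 / 2) = DD b t := by
  rw [DD, DD, ← jacobiTheta₂_add_left (2 * t - 2 * I * b + 1 / 2)]
  congr 1; ring

theorem DD_shift (b t : ℂ) : DD b (t + 2 * I * b) = NN b t := by
  rw [NN, DD]
  congr 1; ring

theorem NN_shift (b t : ℂ) :
    NN b (t + 2 * I * b) = -cexp (4 * Real.pi * b - 4 * Real.pi * I * t) * DD b t := by
  have h := jacobiTheta₂_add_left' (2 * t - 2 * I * b + 1 / 2) (8 * I * b)
  rw [NN, DD]
  rw [show 2 * (t + 2 * I * b) + 2 * I * b + 1 / 2 = 2 * t - 2 * I * b + 1 / 2 + 8 * I * b by ring, h]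
  congr 1
  rw [show -(Real.pi:ℂ) * I * (8 * I * b + 2 * (2 * t - 2 * I * b + 1 / 2))
    = (4 * Real.pi * b - 4 * Real.pi * I * t) - Real.pi * I by linear_combination (-4 * Real.pi * b) * I_mul_I,
    Complex.exp_sub, exp_pi_mul_I]
  ring

theorem NN_conj (b t : ℂ) : (starRingEnd ℂ) (NN b t) = DD ((starRingEnd ℂ) b) ((starRingEnd ℂ) t) := by
  rw [NN, DD, jacobiTheta₂_conj]
  congr 1 <;> simp [map_ofNat, sub_eq_add_neg]

theorem DD_conj (b t : ℂ) : (starRingEnd ℂ) (DD b t) = NN ((starRingEnd ℂ) b) ((starRingEnd ℂ) t) := by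
  rw [NN, DD, jacobiTheta₂_conj]
  congr 1 <;> simp [map_ofNat, sub_eq_add_neg]

theorem NN_hd (hb : 0 < b.re) (t : ℂ) :
    HasDerivAt (NN b) (2 * deriv (fun z => jacobiTheta₂ z (8 * I * b)) (2 * t + 2 * I * b + 1 / 2)) t := by
  have h1 := (th_diff (tau_pos hb) (2 * t + 2 * I * b + 1 / 2)).hasDerivAt
  have h2 : HasDerivAt (fun t : ℂ => 2 * t + 2 * I * b + 1 / 2) (2 * 1) t :=
    (((hasDerivAt_id t).const_mul (2:ℂ)).add_const (2 * I * b)).add_const (1 / 2)
  refine (h1.comp t h2).congr_deriv ?_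
  ring

theorem DD_hd (hb : 0 < b.re) (t : ℂ) :
    HasDerivAt (DD b) (2 * deriv (fun z => jacobiTheta₂ z (8 * I * b)) (2 * t - 2 * I * b + 1 / 2)) t := by
  have h1 := (th_diff (tau_pos hb) (2 * t - 2 * I * b + 1 / 2)).hasDerivAt
  have h2 : HasDerivAt (fun t : ℂ => 2 * t - 2 * I * b + 1 / 2) (2 * 1) t :=
    (((hasDerivAt_id t).const_mul (2:ℂ)).sub_const (2 * I * b)).add_const (1 / 2)
  refine (h1.comp t h2).congr_deriv ?_
  ring

theorem NN_diff (hb : 0 < b.re) : Differentiable ℂ (NN b) := fun t => (NN_hd hb t).differentiableAt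
theorem DD_diff (hb : 0 < b.re) : Differentiable ℂ (DD b) := fun t => (DD_hd hb t).differentiableAt

/-- joint differentiability -/
theorem NN_jd (hb : 0 < b.re) (t : ℂ) : DifferentiableAt ℂ (fun p : ℂ × ℂ => NN p.2 p.1) (t, b) := by
  have h1 := (hasFDerivAt_jacobiTheta₂ (2 * t + 2 * I * b + 1 / 2) (tau_pos hb)).differentiableAt
  have h2 : DifferentiableAt ℂ (fun p : ℂ × ℂ => (2 * p.1 + 2 * I * p.2 + 1 / 2, 8 * I * p.2)) (t, b) := by
    fun_prop
  exact h1.comp (t, b) h2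

theorem DD_jd (hb : 0 < b.re) (t : ℂ) : DifferentiableAt ℂ (fun p : ℂ × ℂ => DD p.2 p.1) (t, b) := by
  have h1 := (hasFDerivAt_jacobiTheta₂ (2 * t - 2 * I * b + 1 / 2) (tau_pos hb)).differentiableAt
  have h2 : DifferentiableAt ℂ (fun p : ℂ × ℂ => (2 * p.1 - 2 * I * p.2 + 1 / 2, 8 * I * p.2)) (t, b) := by
    fun_prop
  exact h1.comp (t, b) h2

theorem Et_jd (hb : 0 < b.re) (h1 : -b.re < t.im) (h2 : t.im < 3 * b.re) :
    DifferentiableAt ℂ (fun p : ℂ × ℂ => Et p.2 p.1) (t, b) := by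
  have h3 : DifferentiableAt ℂ (fun p : ℂ × ℂ => cexp (2 * Real.pi * I * p.1)) (t, b) := by fun_prop
  have h4 : DifferentiableAt ℂ (fun p : ℂ × ℂ => cexp (2 * Real.pi * I * p.1) * NN p.2 p.1) (t, b) :=
    h3.mul (NN_jd hb t)
  have h5 := DD_jd hb t
  have h6 : DifferentiableAt ℂ (fun p : ℂ × ℂ => (DD p.2 p.1)⁻¹) (t, b) := h5.inv (DD_ne hb h1 h2)
  exact h4.mul h6

theorem Et_zero_iff (hb : 0 < b.re) (h1 : -b.re < t.im) (h2 : t.im < 3 * b.re) :
    Et b t = 0 ↔ ∃ k : ℤ, t = I * b + k / 2 := by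
  rw [← NN_zero hb h1 h2, Et_eq, div_eq_zero_iff, mul_eq_zero]
  constructor
  · rintro ((h | h) | h)
    · exact absurd h (Complex.exp_ne_zero _)
    · exact h
    · exact absurd h (DD_ne hb h1 h2)
  · intro h
    exact Or.inl (Or.inr h)

theorem Et_half (b t : ℂ) : Et b (t + 1 / 2) = -Et b t := by
  rw [Et_eq, Et_eq, NN_half, DD_half,
    show (2 * Real.pi * I * (t + 1 / 2) : ℂ) = 2 * Real.pi * I * t + Real.pi * I by ring,
    Complex.exp_add, exp_pi_mul_I]
  ring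

theorem Et_neg (hb : 0 < b.re) (h1 : -b.re < t.im) (h2 : t.im < b.re) : Et b (-t) * Et b t = 1 := by
  have hD := DD_ne hb h1 (by linarith : t.im < 3 * b.re)
  have hN := NN_ne hb h1 h2
  rw [Et_eq, Et_eq, NN_neg, DD_neg]
  have h3 : cexp (2 * Real.pi * I * -t) * cexp (2 * Real.pi * I * t) = 1 := by
    rw [← Complex.exp_add, show (2 * Real.pi * I * -t + 2 * Real.pi * I * t : ℂ) = 0 by ring, Complex.exp_zero]
  rw [div_mul_div_comm, div_eq_iff (mul_ne_zero hN hD)]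
  linear_combination (DD b t * NN b t) * h3

theorem Et_shift (hb : 0 < b.re) (h1 : -b.re < t.im) (h2 : t.im < b.re) :
    Et b (t + 2 * I * b) * Et b t = -1 := by
  have hD := DD_ne hb h1 (by linarith : t.im < 3 * b.re)
  have hN := NN_ne hb h1 h2
  rw [Et_eq, Et_eq, NN_shift, DD_shift]
  have h3 : cexp (2 * Real.pi * I * (t + 2 * I * b)) * cexp (4 * Real.pi * b - 4 * Real.pi * I * t) *
      cexp (2 * Real.pi * I * t) = 1 := by
    rw [← Complex.exp_add, ← Complex.exp_add,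
      show (2 * Real.pi * I * (t + 2 * I * b) + (4 * Real.pi * b - 4 * Real.pi * I * t) + 2 * Real.pi * I * t : ℂ) = 0 by
        linear_combination (4 * Real.pi * b) * I_mul_I, Complex.exp_zero]
  rw [div_mul_div_comm, div_eq_iff (mul_ne_zero hN hD)]
  linear_combination (-(DD b t * NN b t)) * h3

theorem Et_conj (hb : 0 < b.re) (h1 : -b.re < t.im) (h2 : t.im < b.re) :
    (starRingEnd ℂ) (Et b t) * Et ((starRingEnd ℂ) b) ((starRingEnd ℂ) t) = 1 := by
  have hD := DD_ne hb h1 (by linarith : t.im < 3 * b.re)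
  have hN := NN_ne hb h1 h2
  have hD' : NN ((starRingEnd ℂ) b) ((starRingEnd ℂ) t) ≠ 0 := by
    rw [← DD_conj]; exact (map_ne_zero _).mpr hD
  have hN' : DD ((starRingEnd ℂ) b) ((starRingEnd ℂ) t) ≠ 0 := by
    rw [← NN_conj]; exact (map_ne_zero _).mpr hN
  rw [Et_eq, Et_eq, map_div₀, map_mul, NN_conj, DD_conj, ← Complex.exp_conj]
  have h3 : cexp ((starRingEnd ℂ) (2 * Real.pi * I * t)) * cexp (2 * Real.pi * I * (starRingEnd ℂ) t) = 1 := by
    rw [← Complex.exp_add]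
    simp [map_ofNat]
  rw [div_mul_div_comm, div_eq_iff (mul_ne_zero hD' hN')]
  linear_combination (DD ((starRingEnd ℂ) b) ((starRingEnd ℂ) t) * NN ((starRingEnd ℂ) b) ((starRingEnd ℂ) t)) * h3

theorem Et_refl (b t : ℂ) : Et b (2 * I * b - t) = -Et b t := by
  have e1 : NN b (2 * I * b - t) = -cexp (4 * Real.pi * b + 4 * Real.pi * I * t) * NN b t := by
    rw [show 2 * I * b - t = -t + 2 * I * b by ring, NN_shift, DD_neg]
    congr 3; ring
  have e2 : DD b (2 * I * b - t) = DD b t := by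
    rw [show 2 * I * b - t = -t + 2 * I * b by ring, DD_shift, NN_neg]
  rw [Et_eq, Et_eq, e1, e2]
  have h3 : cexp (2 * Real.pi * I * (2 * I * b - t)) * cexp (4 * Real.pi * b + 4 * Real.pi * I * t)
      = cexp (2 * Real.pi * I * t) := by
    rw [← Complex.exp_add]
    congr 1
    linear_combination (4 * Real.pi * b) * I_mul_I
  rw [← h3]; ring

theorem Et_deriv_ne (hb : 0 < b.re) : deriv (Et b) (I * b) ≠ 0 := by
  have him : (I * b).im = b.re := by simp
  have hD : DD b (I * b) ≠ 0 := DD_ne hb (by rw [him]; linarith) (by rw [him]; linarith)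
  have hN : NN b (I * b) = 0 := (NN_zero hb (by rw [him]; linarith) (by rw [him]; linarith)).mpr
    ⟨0, by push_cast; ring⟩
  have hN' := th_simple (tau_pos hb) hN
  have he : HasDerivAt (fun t : ℂ => cexp (2 * Real.pi * I * t)) (cexp (2 * Real.pi * I * (I * b)) * (2 * Real.pi * I)) (I * b) := by
    have := ((hasDerivAt_id (I * b)).const_mul (2 * Real.pi * I : ℂ)).cexp
    refine this.congr_deriv ?_
    simp
  have h : HasDerivAt (Et b) _ (I * b) := (he.mul (NN_hd hb (I * b))).div (DD_hd hb (I * b)) hD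
  rw [h.deriv]
  refine div_ne_zero ?_ (pow_ne_zero 2 hD)
  have hz : ((fun t : ℂ => cexp (2 * Real.pi * I * t)) * NN b) (I * b) = 0 := by
    show cexp _ * NN b (I * b) = 0
    rw [hN, mul_zero]
  rw [hz, hN, mul_zero, zero_add, zero_mul, sub_zero]
  exact mul_ne_zero (mul_ne_zero (Complex.exp_ne_zero _) (mul_ne_zero two_ne_zero hN')) hD

/-- [EFac] -/
theorem efac : Vale.Agent.P097.LR.EFac := by
  refine ⟨?_, fun b hb => ⟨Et_half b, fun t h1 h2 => Et_neg hb h1 h2, fun t h1 h2 => Et_shift hb h1 h2,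
    fun t h1 h2 => Et_conj hb h1 h2, fun t h1 h2 => Et_zero_iff hb h1 h2, fun t _ _ => Et_refl b t,
    Et_deriv_ne hb⟩⟩
  rintro ⟨t, b⟩ ⟨hb, h1, h2⟩
  exact (Et_jd hb h1 h2).differentiableWithinAt

end

end Vale.Agent.P097.H831
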