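import Vale.Agent.P097.H831.EFc

/-!
# [ODE] the differential equation of `Et`
(helper831, P097)
-/

open Complex MeasureTheory Set Filter Topology intervalIntegral

namespace Vale.Agent.P097.H831

open Vale.Agent.P097.LR

noncomputable section

variable {b t : ℂ}

def PP (b t : ℂ) : ℂ := cexp (Real.pi * I * t) * NN b t
def QQ (b t : ℂ) : ℂ := cexp (-(Real.pi * I * t)) * DD b t

theorem PP_diff (hb : 0 < b.re) : Differentiable ℂ (PP b) :=
  (by fun_prop : Differentiable ℂ (fun t : ℂ => cexp (Real.pi * I * t))).mul (NN_diff hb)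

theorem QQ_diff (hb : 0 < b.re) : Differentiable ℂ (QQ b) :=
  (by fun_prop : Differentiable ℂ (fun t : ℂ => cexp (-(Real.pi * I * t)))).mul (DD_diff hb)

theorem Et_PQ (b t : ℂ) : Et b t = PP b t / QQ b t := by
  rw [Et_eq, PP, QQ, Complex.exp_neg]
  have h : cexp (2 * Real.pi * I * t) = cexp (Real.pi * I * t) * cexp (Real.pi * I * t) := by
    rw [← Complex.exp_add]; congr 1; ring
  have hne := Complex.exp_ne_zero (Real.pi * I * t)
  by_cases hD : DD b t = 0
  · rw [hD]; simp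
  · rw [h]
    field_simp

theorem PP_half (b t : ℂ) : PP b (t + 1 / 2) = I * PP b t := by
  rw [PP, PP, NN_half, show (Real.pi * I * (t + 1 / 2) : ℂ) = Real.pi * I * t + Real.pi / 2 * I by ring,
    Complex.exp_add, exp_pi_div_two_mul_I]
  ring

theorem QQ_half (b t : ℂ) : QQ b (t + 1 / 2) = -I * QQ b t := by
  rw [QQ, QQ, DD_half, show (-(Real.pi * I * (t + 1 / 2)) : ℂ) = -(Real.pi * I * t) + -(Real.pi / 2 * I) by ring,
    Complex.exp_add, Complex.exp_neg (Real.pi / 2 * I), exp_pi_div_two_mul_I]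
  rw [Complex.inv_I]; ring

def ph (b t : ℂ) : ℂ := cexp (2 * Real.pi * b - 2 * Real.pi * I * t)

theorem PP_shift (b t : ℂ) : PP b (t + 2 * I * b) = -ph b t * QQ b t := by
  rw [PP, QQ, ph, NN_shift]
  have h : cexp (Real.pi * I * (t + 2 * I * b)) * cexp (4 * Real.pi * b - 4 * Real.pi * I * t)
      = cexp (2 * Real.pi * b - 2 * Real.pi * I * t) * cexp (-(Real.pi * I * t)) := by
    rw [← Complex.exp_add, ← Complex.exp_add]
    congr 1
    linear_combination (2 * Real.pi * b) * I_mul_I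
  linear_combination (-DD b t) * h

theorem QQ_shift (b t : ℂ) : QQ b (t + 2 * I * b) = ph b t * PP b t := by
  rw [PP, QQ, ph, DD_shift]
  have h : cexp (-(Real.pi * I * (t + 2 * I * b)))
      = cexp (2 * Real.pi * b - 2 * Real.pi * I * t) * cexp (Real.pi * I * t) := by
    rw [← Complex.exp_add]
    congr 1
    linear_combination (-2 * Real.pi * b) * I_mul_I
  rw [h]; ring

theorem ph_hd (b t : ℂ) : HasDerivAt (ph b) (ph b t * (-(2 * Real.pi * I))) t := by
  have h : HasDerivAt (fun t : ℂ => 2 * Real.pi * b - 2 * Real.pi * I * t) (-(2 * Real.pi * I * 1)) t :=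
    ((hasDerivAt_id t).const_mul (2 * Real.pi * I : ℂ)).const_sub _
  refine h.cexp.congr_deriv ?_
  rw [ph]; ring

/-- the Wronskian -/
def WW (b t : ℂ) : ℂ := deriv (PP b) t * QQ b t - PP b t * deriv (QQ b) t

theorem WW_diff (hb : 0 < b.re) : Differentiable ℂ (WW b) :=
  ((diff_deriv (PP_diff hb)).mul (QQ_diff hb)).sub ((PP_diff hb).mul (diff_deriv (QQ_diff hb)))

theorem dPP_half (b t : ℂ) : deriv (PP b) (t + 1 / 2) = I * deriv (PP b) t := by
  have h := congrFun (congrArg deriv (funext (PP_half b))) t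
  rw [deriv_comp_add_const] at h
  rw [h, deriv_const_mul_field]

theorem dQQ_half (b t : ℂ) : deriv (QQ b) (t + 1 / 2) = -I * deriv (QQ b) t := by
  have h := congrFun (congrArg deriv (funext (QQ_half b))) t
  rw [deriv_comp_add_const] at h
  rw [h, deriv_const_mul_field]

theorem WW_half (b t : ℂ) : WW b (t + 1 / 2) = WW b t := by
  rw [WW, WW, dPP_half, dQQ_half, PP_half, QQ_half]
  linear_combination (-(deriv (PP b) t * QQ b t) + PP b t * deriv (QQ b) t) * I_mul_I

theorem dPP_shift (hb : 0 < b.re) (t : ℂ) :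
    deriv (PP b) (t + 2 * I * b) = -ph b t * (deriv (QQ b) t - 2 * Real.pi * I * QQ b t) := by
  have h := congrFun (congrArg deriv (funext (PP_shift b))) t
  rw [deriv_comp_add_const] at h
  have h2 : HasDerivAt (fun t => -ph b t * QQ b t) _ t := ((ph_hd b t).neg).mul (QQ_diff hb t).hasDerivAt
  rw [h, h2.deriv, Pi.neg_apply]; ring

theorem dQQ_shift (hb : 0 < b.re) (t : ℂ) :
    deriv (QQ b) (t + 2 * I * b) = ph b t * (deriv (PP b) t - 2 * Real.pi * I * PP b t) := by
  have h := congrFun (congrArg deriv (funext (QQ_shift b))) t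
  rw [deriv_comp_add_const] at h
  have h2 : HasDerivAt (fun t => ph b t * PP b t) _ t := (ph_hd b t).mul (PP_diff hb t).hasDerivAt
  rw [h, h2.deriv]; ring

theorem WW_shift (hb : 0 < b.re) (t : ℂ) : WW b (t + 2 * I * b) = ph b t ^ 2 * WW b t := by
  rw [WW, WW, dPP_shift hb, dQQ_shift hb, PP_shift, QQ_shift]; ring

theorem ph_four (b z : ℂ) : ph b (z / 2) ^ 4 = cexp (-(Real.pi * I * ((2:ℤ):ℂ) * (4 * I * b + 2 * z))) := by
  rw [ph, ← Complex.exp_nat_mul]
  congr 1
  push_cast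
  linear_combination (8 * Real.pi * b) * I_mul_I

/-- weight two functions for the lattice `1, 4 i b` -/
theorem TT2_of {F : ℂ → ℂ} (hF : Differentiable ℂ F) (h1 : ∀ t, F (t + 1 / 2) = F t)
    (h2 : ∀ t, F (t + 2 * I * b) = ph b t ^ 4 * F t) : TT 2 (4 * I * b) (fun z => F (z / 2)) where
  diff := hF.comp (differentiable_id.div_const 2)
  per := fun z => by
    show F ((z + 1) / 2) = F (z / 2)
    rw [show (z + 1) / 2 = z / 2 + 1 / 2 by ring, h1]
  qper := fun z => by
    show F ((z + 4 * I * b) / 2) = _ * F (z / 2)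
    rw [show (z + 4 * I * b) / 2 = z / 2 + 2 * I * b by ring, h2, ph_four]

theorem QQ_ne (hb : 0 < b.re) (h1 : -b.re < t.im) (h2 : t.im < 3 * b.re) : QQ b t ≠ 0 :=
  mul_ne_zero (Complex.exp_ne_zero _) (DD_ne hb h1 h2)

theorem PP_ib (hb : 0 < b.re) : PP b (I * b) = 0 := by
  have him : (I * b).im = b.re := by simp
  rw [PP, (NN_zero hb (by rw [him]; linarith) (by rw [him]; linarith)).mpr ⟨0, by push_cast; ring⟩, mul_zero]

theorem QQ_ib (hb : 0 < b.re) : QQ b (I * b) ≠ 0 := by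
  have him : (I * b).im = b.re := by simp
  exact QQ_ne hb (by rw [him]; linarith) (by rw [him]; linarith)

theorem WW_sq (hb : 0 < b.re) : ∃ γ α : ℂ, ∀ t, WW b t ^ 2 =
    γ * (PP b t ^ 2 * QQ b t ^ 2) + α * (PP b t ^ 4 + QQ b t ^ 4) := by
  have hQ := QQ_ib hb
  have hP := PP_ib hb
  set α : ℂ := WW b (I * b) ^ 2 / QQ b (I * b) ^ 4 with hα
  have dP := PP_diff hb
  have dQ := QQ_diff hb
  have dW := WW_diff hb
  have I4 : I ^ 4 = 1 := I_pow_four
  have hh : TT 2 (4 * I * b) (fun z => PP b (z / 2) ^ 4 + QQ b (z / 2) ^ 4) :=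
    TT2_of (F := fun t => PP b t ^ 4 + QQ b t ^ 4) (by fun_prop)
      (fun t => by
        show PP b (t + 1 / 2) ^ 4 + QQ b (t + 1 / 2) ^ 4 = PP b t ^ 4 + QQ b t ^ 4
        rw [PP_half, QQ_half]; linear_combination (PP b t ^ 4 + QQ b t ^ 4) * I4)
      (fun t => by
        show PP b (t + 2 * I * b) ^ 4 + QQ b (t + 2 * I * b) ^ 4 = ph b t ^ 4 * (PP b t ^ 4 + QQ b t ^ 4)
        rw [PP_shift, QQ_shift]; ring)
  have hg : TT 2 (4 * I * b) (fun z => PP b (z / 2) ^ 2 * QQ b (z / 2) ^ 2) :=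
    TT2_of (F := fun t => PP b t ^ 2 * QQ b t ^ 2) (by fun_prop)
      (fun t => by
        show PP b (t + 1 / 2) ^ 2 * QQ b (t + 1 / 2) ^ 2 = PP b t ^ 2 * QQ b t ^ 2
        rw [PP_half, QQ_half]; linear_combination (PP b t ^ 2 * QQ b t ^ 2) * I4)
      (fun t => by
        show PP b (t + 2 * I * b) ^ 2 * QQ b (t + 2 * I * b) ^ 2 = ph b t ^ 4 * (PP b t ^ 2 * QQ b t ^ 2)
        rw [PP_shift, QQ_shift]; ring)
  have hw : TT 2 (4 * I * b) (fun z => WW b (z / 2) ^ 2) :=
    TT2_of (F := fun t => WW b t ^ 2) (by fun_prop)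
      (fun t => by
        show WW b (t + 1 / 2) ^ 2 = WW b t ^ 2
        rw [WW_half])
      (fun t => by
        show WW b (t + 2 * I * b) ^ 2 = ph b t ^ 4 * WW b t ^ 2
        rw [WW_shift hb]; ring)
  have hf : TT 2 (4 * I * b) (fun z => WW b (z / 2) ^ 2 + (-α) * (PP b (z / 2) ^ 4 + QQ b (z / 2) ^ 4)) :=
    hw.add (hh.smul (-α))
  obtain ⟨γ, hγ⟩ := TT.prop_of_zero (p := 2 * (I * b)) hf hg hh
    (by
      show WW b (2 * (I * b) / 2) ^ 2 + (-α) * (PP b (2 * (I * b) / 2) ^ 4 + QQ b (2 * (I * b) / 2) ^ 4) = 0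
      rw [show 2 * (I * b) / 2 = I * b by ring, hP, hα]
      field_simp
      ring)
    (by
      show PP b (2 * (I * b) / 2) ^ 2 * QQ b (2 * (I * b) / 2) ^ 2 = 0
      rw [show 2 * (I * b) / 2 = I * b by ring, hP]; ring)
    (by
      show PP b (2 * (I * b) / 2) ^ 4 + QQ b (2 * (I * b) / 2) ^ 4 ≠ 0
      rw [show 2 * (I * b) / 2 = I * b by ring, hP, zero_pow (by norm_num), zero_add]
      exact pow_ne_zero 4 hQ)
    (by
      refine ⟨0, ?_⟩
      show PP b (0 / 2) ^ 2 * QQ b (0 / 2) ^ 2 ≠ 0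
      rw [zero_div]
      refine mul_ne_zero (pow_ne_zero 2 ?_) (pow_ne_zero 2 ?_)
      · exact mul_ne_zero (Complex.exp_ne_zero _) (NN_ne hb (by simpa using hb) (by simpa using hb))
      · exact QQ_ne hb (by simpa using hb) (by simp; linarith))
  refine ⟨γ, α, fun t => ?_⟩
  have h := hγ (2 * t)
  simp only [show 2 * t / 2 = t by ring] at h
  linear_combination h

theorem Et_hd (hb : 0 < b.re) (h1 : -b.re < t.im) (h2 : t.im < 3 * b.re) :
    HasDerivAt (Et b) (WW b t / QQ b t ^ 2) t := by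
  have hQ := QQ_ne hb h1 h2
  have h : HasDerivAt (fun t => PP b t / QQ b t) (WW b t / QQ b t ^ 2) t :=
    (PP_diff hb t).hasDerivAt.div (QQ_diff hb t).hasDerivAt hQ
  have he : Et b = fun t => PP b t / QQ b t := funext (Et_PQ b)
  rw [he]; exact h

/-- [ODE] -/
theorem ode : Vale.Agent.P097.LR.ODE := by
  intro b hb
  obtain ⟨γ, α, h⟩ := WW_sq hb
  have key : ∀ t : ℂ, -b.re < t.im → t.im < 3 * b.re →
      deriv (Et b) t ^ 2 = γ * Et b t ^ 2 + α * (1 + Et b t ^ 4) := by
    intro t h1 h2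
    have hQ := QQ_ne hb h1 h2
    rw [(Et_hd hb h1 h2).deriv, Et_PQ]
    have h3 := h t
    field_simp
    linear_combination h3
  have him : (I * b).im = b.re := by simp
  have k1 := key (I * b) (by rw [him]; linarith) (by rw [him]; linarith)
  have z1 : Et b (I * b) = 0 := by rw [Et_PQ, PP_ib hb, zero_div]
  rw [z1] at k1
  have k0 := key 0 (by simpa using hb) (by simp; linarith)
  have z0 : Et b 0 * Et b 0 = 1 := by
    have := Et_neg (t := 0) hb (by simpa using hb) (by simpa using hb)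
    rwa [neg_zero] at this
  intro t h1 h2
  rw [key t h1 h2, e0, e1]
  have a1 : deriv (Et b) (I * b) ^ 2 = α := by linear_combination k1
  have a0 : deriv (Et b) 0 ^ 2 = γ + 2 * α := by
    linear_combination k0 + (γ + α * (Et b 0 ^ 2 + 1)) * z0
  rw [show (Complex.I * b) = I * b from rfl, a1, a0]
  ring

end

end Vale.Agent.P097.H831
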