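import Mathlib

/-!
# Entire functions with period 1: Fourier coefficients, theta-type functions
(helper831, P097 block [TZ])
-/

open Complex MeasureTheory Set Filter Topology intervalIntegral

namespace Vale.Agent.P097.H831

noncomputable section

/-- The mean over a period of an entire function of period 1 does not depend on the base point. -/
theorem mean_shift {F : ℂ → ℂ} (hF : Differentiable ℂ F) (hp : ∀ z, F (z + 1) = F z) (c : ℂ) :
    ∫ x in (0:ℝ)..1, F ((x:ℂ) + c) = ∫ x in (0:ℝ)..1, F (x:ℂ) := by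
  have hv : ∀ y : ℝ, ∫ x in (0:ℝ)..1, F ((x:ℂ) + y * I) = ∫ x in (0:ℝ)..1, F (x:ℂ) := by
    intro y
    have h := Complex.integral_boundary_rect_eq_zero_of_differentiableOn F 0 (1 + y * I)
      hF.differentiableOn
    have e1 : ∀ t : ℝ, F (1 + (t:ℂ) * I) = F ((t:ℂ) * I) := by
      intro t; rw [add_comm]; exact hp _
    simp only [zero_re, add_re, one_re, mul_re, ofReal_re, I_re, mul_zero, ofReal_im, I_im, mul_one,
      sub_self, add_zero, zero_im, ofReal_zero, zero_mul, add_im, one_im, mul_im, zero_add,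
      ofReal_one, e1, ofReal_add, ofReal_mul] at h
    have h' : (∫ x in (0:ℝ)..1, F (x:ℂ)) - (∫ x in (0:ℝ)..1, F ((x:ℂ) + y * I)) = 0 := by
      linear_combination h
    exact (sub_eq_zero.mp h').symm
  have hper : Function.Periodic (fun x : ℝ => F ((x:ℂ) + c.im * I)) 1 := by
    intro x
    show F (((x + 1 : ℝ) : ℂ) + c.im * I) = F ((x:ℂ) + c.im * I)
    rw [← hp ((x:ℂ) + c.im * I)]
    congr 1
    push_cast
    ring
  have h2 := hper.intervalIntegral_add_eq c.re 0
  rw [zero_add, hv] at h2
  rw [← h2]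
  have h3 := intervalIntegral.integral_comp_add_right (a := (0:ℝ)) (b := 1)
    (fun x : ℝ => F ((x:ℂ) + c.im * I)) c.re
  rw [zero_add, add_comm (1:ℝ) c.re] at h3
  rw [← h3]
  refine intervalIntegral.integral_congr (fun x _ => ?_)
  show F ((x:ℂ) + c) = F (((x + c.re : ℝ) : ℂ) + c.im * I)
  congr 1
  push_cast
  rw [add_assoc, re_add_im]

/-- Fourier coefficients of an entire function of period 1. -/
def fc (f : ℂ → ℂ) (n : ℤ) : ℂ := ∫ x in (0:ℝ)..1, f (x:ℂ) * cexp (-(2 * Real.pi * I * n * (x:ℂ)))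

theorem fc_shift {f : ℂ → ℂ} (hf : Differentiable ℂ f) (hp : ∀ z, f (z + 1) = f z) (n : ℤ) (c : ℂ) :
    fc f n = ∫ x in (0:ℝ)..1, f ((x:ℂ) + c) * cexp (-(2 * Real.pi * I * n * ((x:ℂ) + c))) := by
  have h := mean_shift (F := fun z => f z * cexp (-(2 * Real.pi * I * n * z)))
    (hf.mul (by fun_prop)) (fun z => by
      show f (z + 1) * cexp (-(2 * Real.pi * I * n * (z + 1))) = f z * cexp (-(2 * Real.pi * I * n * z))
      rw [hp]
      congr 1
      have : -(2 * Real.pi * I * n * (z + 1)) = -(2 * Real.pi * I * n * z) + ((-n : ℤ) : ℂ) * (2 * Real.pi * I) := by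
        push_cast; ring
      rw [this, Complex.exp_add, exp_int_mul_two_pi_mul_I, mul_one]) c
  exact h.symm

theorem eq_zero_of_fc {f : ℂ → ℂ} (hf : Differentiable ℂ f) (hp : ∀ z, f (z + 1) = f z)
    (h0 : ∀ n, fc f n = 0) : ∀ z, f z = 0 := by
  haveI : Fact ((0:ℝ) < 1) := ⟨one_pos⟩
  -- the function on the circle
  set g : ℝ → ℂ := fun x => f (x:ℂ) with hg
  have hgc : Continuous g := hf.continuous.comp continuous_ofReal
  have hg01 : g 0 = g (0 + 1) := by
    simp only [hg]
    have := hp 0
    simpa using this.symm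
  let G : C(AddCircle (1:ℝ), ℂ) := ⟨AddCircle.liftIco 1 0 g,
    AddCircle.liftIco_continuous hg01 hgc.continuousOn⟩
  have hG : ∀ n, fourierCoeff G n = 0 := by
    intro n
    show fourierCoeff (AddCircle.liftIco 1 0 g) n = 0
    rw [fourierCoeff_liftIco_eq, fourierCoeffOn_eq_integral]
    have : ∫ x in (0:ℝ)..(0+1), (fourier (-n)) (x : AddCircle ((0:ℝ) + 1 - 0)) • g x = fc f n := by
      rw [zero_add, fc]
      refine intervalIntegral.integral_congr (fun x _ => ?_)
      show (fourier (-n)) (x : AddCircle ((1:ℝ) - 0)) • g x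
        = f (x:ℂ) * cexp (-(2 * Real.pi * I * n * (x:ℂ)))
      rw [fourier_coe_apply, smul_eq_mul, mul_comm]
      congr 2
      push_cast
      ring
    rw [this, h0 n, smul_zero]
  have hzero : ∀ x ∈ Ico (0:ℝ) 1, f (x:ℂ) = 0 := by
    intro x hx
    have hs : Summable (fourierCoeff G) := by
      rw [show fourierCoeff G = fun _ => 0 from funext hG]; exact summable_zero
    have h1 := has_pointwise_sum_fourier_series_of_summable hs (x : AddCircle (1:ℝ))
    simp only [hG, zero_smul] at h1
    have h2 : G (x : AddCircle (1:ℝ)) = 0 := h1.unique hasSum_zero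
    have h3 : G (x : AddCircle (1:ℝ)) = g x := by
      show AddCircle.liftIco 1 0 g (x : AddCircle (1:ℝ)) = g x
      exact AddCircle.liftIco_coe_apply (by simpa using hx)
    rw [h3] at h2
    exact h2
  -- identity theorem
  have han : AnalyticOnNhd ℂ f univ := fun z _ => hf.analyticAt z
  have hfreq : ∃ᶠ z in 𝓝[≠] (1/2 : ℂ), f z = 0 := by
    have ht : Tendsto (fun n : ℕ => ((1/2 + 1/((n:ℝ)+3) : ℝ) : ℂ)) atTop (𝓝[≠] (1/2:ℂ)) := by
      rw [tendsto_nhdsWithin_iff]
      constructor
      · have h1 : Tendsto (fun n : ℕ => (1/2 + 1/((n:ℝ)+3) : ℝ)) atTop (𝓝 (1/2 + 0)) := by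
          refine tendsto_const_nhds.add ?_
          have := tendsto_one_div_add_atTop_nhds_zero_nat (𝕜 := ℝ)
          have h2 := (tendsto_add_atTop_iff_nat 2).mpr this
          refine h2.congr (fun n => ?_)
          push_cast; ring
        rw [add_zero] at h1
        have h3 := (continuous_ofReal.tendsto (1/2:ℝ)).comp h1
        refine (h3.congr (fun n => rfl)).trans_eq ?_
        simp
      · refine Eventually.of_forall (fun n => ?_)
        simp only [mem_compl_iff, mem_singleton_iff]
        intro h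
        have h4 : ((1/2 + 1/((n:ℝ)+3) : ℝ) : ℂ) = ((1/2 : ℝ) : ℂ) := by rw [h]; simp
        rw [ofReal_inj] at h4
        have : (1:ℝ)/((n:ℝ)+3) > 0 := by positivity
        linarith
    refine ht.frequently (Frequently.of_forall (fun n => ?_))
    apply hzero
    constructor
    · positivity
    · have : (1:ℝ)/((n:ℝ)+3) ≤ 1/3 := by
        apply one_div_le_one_div_of_le (by norm_num)
        have : (0:ℝ) ≤ n := Nat.cast_nonneg n
        linarith
      linarith
  have := han.eqOn_zero_of_preconnected_of_frequently_eq_zero isPreconnected_univ (mem_univ _) hfreq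
  exact fun z => this (mem_univ z)

end

end Vale.Agent.P097.H831
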