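import Vale.Agent.P097.H831.Zero

/-!
# [TZ] simplicity of the zeros
(helper831, P097)
-/

open Complex MeasureTheory Set Filter Topology intervalIntegral

namespace Vale.Agent.P097.H831

noncomputable section

variable {τ : ℂ}

/-- an entire function has entire derivative -/
theorem diff_deriv {f : ℂ → ℂ} (hf : Differentiable ℂ f) : Differentiable ℂ (deriv f) :=
  fun z => ((hf.analyticAt z).deriv).differentiableAt

/-- `f f'' - f'^2` has weight two -/
theorem TT.hess {f : ℂ → ℂ} (hf : TT 1 τ f) :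
    TT 2 τ (fun z => f z * deriv (deriv f) z - deriv f z * deriv f z) := by
  have d1 := diff_deriv hf.diff
  have d2 := diff_deriv d1
  have p0 : ∀ z, deriv f (z + 1) = deriv f z := fun z => by
    have : (fun z => f (z + 1)) = f := funext hf.per
    have h := congrFun (congrArg deriv this) z
    rwa [deriv_comp_add_const] at h
  have p1 : ∀ z, deriv (deriv f) (z + 1) = deriv (deriv f) z := fun z => by
    have : (fun z => deriv f (z + 1)) = deriv f := funext p0
    have h := congrFun (congrArg deriv this) z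
    rwa [deriv_comp_add_const] at h
  have he : ∀ z : ℂ, HasDerivAt (fun z : ℂ => cexp (-(Real.pi * I * ((1:ℤ):ℂ) * (τ + 2 * z))))
      (cexp (-(Real.pi * I * ((1:ℤ):ℂ) * (τ + 2 * z))) * (-(2 * Real.pi * I))) z := by
    intro z
    have h : HasDerivAt (fun z : ℂ => -(Real.pi * I * ((1:ℤ):ℂ) * (τ + 2 * z)))
        (-(Real.pi * I * ((1:ℤ):ℂ) * (2 * 1))) z :=
      ((((hasDerivAt_id z).const_mul (2:ℂ)).const_add τ).const_mul _).neg
    refine h.cexp.congr_deriv ?_
    push_cast
    ring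
  have q0 : ∀ z, deriv f (z + τ) = cexp (-(Real.pi * I * ((1:ℤ):ℂ) * (τ + 2 * z))) *
      (deriv f z - 2 * Real.pi * I * f z) := fun z => by
    have : (fun z => f (z + τ)) = fun z => cexp (-(Real.pi * I * ((1:ℤ):ℂ) * (τ + 2 * z))) * f z :=
      funext hf.qper
    have h := congrFun (congrArg deriv this) z
    have h2 : HasDerivAt (fun z => cexp (-(Real.pi * I * ((1:ℤ):ℂ) * (τ + 2 * z))) * f z) _ z :=
      (he z).mul (hf.diff z).hasDerivAt
    rw [deriv_comp_add_const, h2.deriv] at h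
    rw [h]; ring
  have q1 : ∀ z, deriv (deriv f) (z + τ) = cexp (-(Real.pi * I * ((1:ℤ):ℂ) * (τ + 2 * z))) *
      (deriv (deriv f) z - 2 * (2 * Real.pi * I) * deriv f z + (2 * Real.pi * I) ^ 2 * f z) := fun z => by
    have : (fun z => deriv f (z + τ)) = fun z => cexp (-(Real.pi * I * ((1:ℤ):ℂ) * (τ + 2 * z))) *
        (deriv f z - 2 * Real.pi * I * f z) := funext q0
    have h := congrFun (congrArg deriv this) z
    have hd : HasDerivAt (fun z => deriv f z - 2 * Real.pi * I * f z)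
        (deriv (deriv f) z - 2 * Real.pi * I * deriv f z) z :=
      (d1 z).hasDerivAt.sub ((hf.diff z).hasDerivAt.const_mul _)
    have h2 : HasDerivAt (fun z => cexp (-(Real.pi * I * ((1:ℤ):ℂ) * (τ + 2 * z))) *
        (deriv f z - 2 * Real.pi * I * f z)) _ z := (he z).mul hd
    rw [deriv_comp_add_const, h2.deriv] at h
    rw [h]; ring
  refine ⟨(hf.diff.mul d2).sub (d1.mul d1), fun z => ?_, fun z => ?_⟩
  · show f (z + 1) * deriv (deriv f) (z + 1) - deriv f (z + 1) * deriv f (z + 1) = _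
    rw [hf.per, p0, p1]
  · show f (z + τ) * deriv (deriv f) (z + τ) - deriv f (z + τ) * deriv f (z + τ) = _
    rw [hf.qper, q0, q1]
    have e : cexp (-(Real.pi * I * ((2:ℤ):ℂ) * (τ + 2 * z)))
        = cexp (-(Real.pi * I * ((1:ℤ):ℂ) * (τ + 2 * z))) * cexp (-(Real.pi * I * ((1:ℤ):ℂ) * (τ + 2 * z))) := by
      rw [← Complex.exp_add]; congr 1; push_cast; ring
    rw [e]; ring

/-- zeros are simple -/
theorem th_simple (hτ : 0 < τ.im) {z1 : ℂ} (h1 : jacobiTheta₂ z1 τ = 0) :
    deriv (fun z => jacobiTheta₂ z τ) z1 ≠ 0 := by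
  intro hd1
  set f : ℂ → ℂ := fun z => jacobiTheta₂ z τ with hf
  have hT : TT 1 τ f := th_TT hτ
  have hdf := hT.diff
  have d1 := diff_deriv hdf
  have d2 := diff_deriv d1
  obtain ⟨a, ha⟩ := th_ne hτ
  -- a weight two function not vanishing at z1
  obtain ⟨s, hs1, hs2⟩ := common_ne (f := fun s => f (z1 + s)) (g := fun s => f (z1 - s))
    (hdf.comp (differentiable_id.const_add z1)) (hdf.comp (differentiable_id.const_sub z1))
    ⟨a - z1, by show f (z1 + (a - z1)) ≠ 0; rw [add_sub_cancel]; exact ha⟩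
    ⟨z1 - a, by show f (z1 - (z1 - a)) ≠ 0; rw [sub_sub_cancel]; exact ha⟩
  have hsq : TT 2 τ (fun z => f z * f z) := by
    have := mul_shift hT hT 0
    simpa using this
  obtain ⟨c, hc⟩ := TT.prop_of_zero (p := z1) hT.hess hsq (mul_shift hT hT s)
    (by show f z1 * _ - deriv f z1 * deriv f z1 = 0
        rw [hd1, show f z1 = 0 from h1]; ring)
    (by show f z1 * f z1 = 0
        rw [show f z1 = 0 from h1]; ring)
    (by show f (z1 + s) * f (z1 - s) ≠ 0
        exact mul_ne_zero hs1 hs2)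
    ⟨a, mul_ne_zero ha ha⟩
  -- Gaussian multiple
  set ψ : ℂ → ℂ := fun z => cexp (-(c / 2 * z ^ 2)) * f z with hψ
  have he : ∀ z : ℂ, HasDerivAt (fun z : ℂ => cexp (-(c / 2 * z ^ 2))) (cexp (-(c / 2 * z ^ 2)) * (-(c * z))) z := by
    intro z
    have h : HasDerivAt (fun z : ℂ => -(c / 2 * z ^ 2)) (-(c / 2 * ((2:ℕ) * z ^ (2 - 1) * 1))) z :=
      (((hasDerivAt_id z).pow 2).const_mul (c / 2)).neg
    refine h.cexp.congr_deriv ?_
    push_cast
    ring
  have hψ1 : ∀ z, HasDerivAt ψ (cexp (-(c / 2 * z ^ 2)) * (deriv f z - c * z * f z)) z := by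
    intro z
    refine ((he z).mul (hdf z).hasDerivAt).congr_deriv ?_
    ring
  have hψd : Differentiable ℂ ψ := fun z => (hψ1 z).differentiableAt
  have hψ1' : deriv ψ = fun z => cexp (-(c / 2 * z ^ 2)) * (deriv f z - c * z * f z) :=
    funext (fun z => (hψ1 z).deriv)
  have hψ2 : ∀ z, HasDerivAt (deriv ψ)
      (cexp (-(c / 2 * z ^ 2)) * (deriv (deriv f) z - 2 * c * z * deriv f z - c * f z + c ^ 2 * z ^ 2 * f z)) z := by
    intro z
    rw [hψ1']
    have hin : HasDerivAt (fun z => deriv f z - c * z * f z)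
        (deriv (deriv f) z - (c * 1 * f z + c * z * deriv f z)) z :=
      (d1 z).hasDerivAt.sub (((hasDerivAt_id z).const_mul c).mul (hdf z).hasDerivAt)
    refine ((he z).mul hin).congr_deriv ?_
    ring
  obtain ⟨k, hk⟩ := of_wronskian (diff_deriv hψd) hψd
    ⟨a, mul_ne_zero (Complex.exp_ne_zero _) ha⟩ (fun z => by
      rw [(hψ2 z).deriv, (hψ1 z).deriv]
      show _ * (cexp (-(c / 2 * z ^ 2)) * f z) = _
      have := hc z
      linear_combination (cexp (-(c / 2 * z ^ 2))) ^ 2 * this)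
  -- ψ' = k ψ
  have hχ : ∀ z, HasDerivAt (fun z => cexp (-(k * z)) * ψ z) 0 z := by
    intro z
    have h : HasDerivAt (fun z : ℂ => -(k * z)) (-(k * 1)) z := ((hasDerivAt_id z).const_mul k).neg
    refine (h.cexp.mul (hψd z).hasDerivAt).congr_deriv ?_
    rw [hk z]; ring
  have hconst := is_const_of_deriv_eq_zero (fun z => (hχ z).differentiableAt) (fun z => (hχ z).deriv) a z1
  have h2 : cexp (-(k * z1)) * ψ z1 = 0 := by
    show cexp (-(k * z1)) * (cexp (-(c / 2 * z1 ^ 2)) * f z1) = 0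
    rw [show f z1 = 0 from h1]; ring
  rw [h2] at hconst
  exact mul_ne_zero (Complex.exp_ne_zero _) (mul_ne_zero (Complex.exp_ne_zero _) ha) hconst

end

end Vale.Agent.P097.H831
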