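import Vale.Agent.P097.H831.Four

/-!
# Theta-type functions of weight 1 and 2
(helper831, P097 block [TZ])
-/

open Complex MeasureTheory Set Filter Topology intervalIntegral

namespace Vale.Agent.P097.H831

noncomputable section

/-- entire functions with `f (z+1) = f z`, `f (z+τ) = exp (-π i k (τ+2z)) f z`. -/
structure TT (k : ℤ) (τ : ℂ) (f : ℂ → ℂ) : Prop where
  diff : Differentiable ℂ f
  per : ∀ z, f (z + 1) = f z
  qper : ∀ z, f (z + τ) = cexp (-(Real.pi * I * k * (τ + 2 * z))) * f z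

namespace TT

variable {k : ℤ} {τ : ℂ} {f g h : ℂ → ℂ}

theorem recur (hf : TT k τ f) (n : ℤ) :
    fc f n = cexp (-(Real.pi * I * (k + 2 * n) * τ)) * fc f (n + k) := by
  rw [fc_shift hf.diff hf.per n τ, fc, ← intervalIntegral.integral_const_mul]
  refine intervalIntegral.integral_congr (fun x _ => ?_)
  show f ((x:ℂ) + τ) * cexp (-(2 * Real.pi * I * n * ((x:ℂ) + τ)))
    = cexp (-(Real.pi * I * (k + 2 * n) * τ)) * (f (x:ℂ) * cexp (-(2 * Real.pi * I * ((n + k : ℤ) : ℂ) * (x:ℂ))))
  rw [hf.qper, mul_comm (f (x:ℂ)), ← mul_assoc, ← Complex.exp_add, mul_right_comm, ← Complex.exp_add]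
  congr 2
  push_cast
  ring

theorem recur_zero (hf : TT k τ f) (n : ℤ) : fc f n = 0 ↔ fc f (n + k) = 0 := by
  rw [hf.recur n]
  simp [Complex.exp_ne_zero]

theorem eq_zero_one (hf : TT 1 τ f) (h0 : fc f 0 = 0) : ∀ z, f z = 0 := by
  refine eq_zero_of_fc hf.diff hf.per (fun n => ?_)
  induction n using Int.induction_on with
  | zero => exact h0
  | succ i ih => exact (hf.recur_zero _).mp ih
  | pred i ih =>
      refine (hf.recur_zero _).mpr ?_
      rw [sub_add_cancel]; exact ih

theorem eq_zero_two (hf : TT 2 τ f) (h0 : fc f 0 = 0) (h1 : fc f 1 = 0) : ∀ z, f z = 0 := by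
  have key : ∀ n : ℤ, fc f n = 0 ∧ fc f (n + 1) = 0 := by
    intro n
    induction n using Int.induction_on with
    | zero => exact ⟨h0, by simpa using h1⟩
    | succ i ih =>
        refine ⟨ih.2, ?_⟩
        have := (hf.recur_zero _).mp ih.1
        rw [show ((i:ℤ) + 1 + 1) = (i:ℤ) + 2 by ring]; exact this
    | pred i ih =>
        refine ⟨?_, ?_⟩
        · refine (hf.recur_zero _).mpr ?_
          rw [show (-(i:ℤ) - 1 + 2) = -(i:ℤ) + 1 by ring]; exact ih.2
        · rw [sub_add_cancel]; exact ih.1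
  exact eq_zero_of_fc hf.diff hf.per (fun n => (key n).1)

theorem smul (hf : TT k τ f) (c : ℂ) : TT k τ (fun z => c * f z) where
  diff := hf.diff.const_mul c
  per := fun z => by simp only [hf.per]
  qper := fun z => by simp only [hf.qper]; ring

theorem add (hf : TT k τ f) (hg : TT k τ g) : TT k τ (fun z => f z + g z) where
  diff := hf.diff.add hg.diff
  per := fun z => by simp only [hf.per, hg.per]
  qper := fun z => by simp only [hf.qper, hg.qper]; ring

end TT

theorem intervalIntegrable_fc {f : ℂ → ℂ} (hf : Differentiable ℂ f) (n : ℤ) :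
    IntervalIntegrable (fun x : ℝ => f (x:ℂ) * cexp (-(2 * Real.pi * I * n * (x:ℂ)))) volume 0 1 := by
  apply Continuous.intervalIntegrable
  have := hf.continuous
  fun_prop

theorem fc_smul {f : ℂ → ℂ} (c : ℂ) (n : ℤ) : fc (fun z => c * f z) n = c * fc f n := by
  rw [fc, fc, ← intervalIntegral.integral_const_mul]
  refine intervalIntegral.integral_congr (fun x _ => ?_)
  show c * f (x:ℂ) * _ = c * (f (x:ℂ) * _)
  ring

theorem fc_add {f g : ℂ → ℂ} (hf : Differentiable ℂ f) (hg : Differentiable ℂ g) (n : ℤ) :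
    fc (fun z => f z + g z) n = fc f n + fc g n := by
  rw [fc, fc, fc, ← intervalIntegral.integral_add (intervalIntegrable_fc hf n) (intervalIntegrable_fc hg n)]
  refine intervalIntegral.integral_congr (fun x _ => ?_)
  show (f (x:ℂ) + g (x:ℂ)) * _ = f (x:ℂ) * _ + g (x:ℂ) * _
  ring

namespace TT

variable {k : ℤ} {τ : ℂ} {f g h : ℂ → ℂ}

/-- weight one: one-dimensional -/
theorem one_dim (hf : TT 1 τ f) (hg : TT 1 τ g) (z : ℂ) : fc f 0 * g z = fc g 0 * f z := by
  have hT : TT 1 τ (fun z => fc f 0 * g z + (-fc g 0) * f z) := (hg.smul _).add (hf.smul _)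
  have h0 : fc (fun z => fc f 0 * g z + (-fc g 0) * f z) 0 = 0 := by
    rw [fc_add (hg.smul _).diff (hf.smul _).diff, fc_smul, fc_smul]; ring
  have := hT.eq_zero_one h0 z
  linear_combination this

/-- weight two: two-dimensional -/
theorem two_dim (hf : TT 2 τ f) (hg : TT 2 τ g) (hh : TT 2 τ h) (z : ℂ) :
    (fc g 0 * fc h 1 - fc g 1 * fc h 0) * f z + (fc h 0 * fc f 1 - fc h 1 * fc f 0) * g z
      + (fc f 0 * fc g 1 - fc f 1 * fc g 0) * h z = 0 := by
  have hT := ((hf.smul (fc g 0 * fc h 1 - fc g 1 * fc h 0)).add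
    (hg.smul (fc h 0 * fc f 1 - fc h 1 * fc f 0))).add (hh.smul (fc f 0 * fc g 1 - fc f 1 * fc g 0))
  refine hT.eq_zero_two ?_ ?_ z
  · rw [fc_add ((hf.smul _).add (hg.smul _)).diff (hh.smul _).diff,
      fc_add (hf.smul _).diff (hg.smul _).diff, fc_smul, fc_smul, fc_smul]; ring
  · rw [fc_add ((hf.smul _).add (hg.smul _)).diff (hh.smul _).diff,
      fc_add (hf.smul _).diff (hg.smul _).diff, fc_smul, fc_smul, fc_smul]; ring

/-- weight two, two functions with vanishing determinant are proportional -/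
theorem prop_of_det (hf : TT 2 τ f) (hg : TT 2 τ g) (hdet : fc f 0 * fc g 1 = fc f 1 * fc g 0)
    (hg0 : ∃ z, g z ≠ 0) : ∃ c, ∀ z, f z = c * g z := by
  have hne : fc g 0 ≠ 0 ∨ fc g 1 ≠ 0 := by
    by_contra hcon
    push Not at hcon
    obtain ⟨z, hz⟩ := hg0
    exact hz (hg.eq_zero_two hcon.1 hcon.2 z)
  rcases hne with h | h
  · refine ⟨fc f 0 / fc g 0, fun z => ?_⟩
    have hT : TT 2 τ (fun z => f z + (-(fc f 0 / fc g 0)) * g z) := hf.add (hg.smul _)
    have := hT.eq_zero_two (by rw [fc_add hf.diff (hg.smul _).diff, fc_smul]; field_simp; ring)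
      (by rw [fc_add hf.diff (hg.smul _).diff, fc_smul]; field_simp; linear_combination -hdet) z
    linear_combination this
  · refine ⟨fc f 1 / fc g 1, fun z => ?_⟩
    have hT : TT 2 τ (fun z => f z + (-(fc f 1 / fc g 1)) * g z) := hf.add (hg.smul _)
    have := hT.eq_zero_two (by rw [fc_add hf.diff (hg.smul _).diff, fc_smul]; field_simp; linear_combination hdet)
      (by rw [fc_add hf.diff (hg.smul _).diff, fc_smul]; field_simp; ring) z
    linear_combination this

/-- weight two, two functions with a common zero which is not a base point are proportional -/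
theorem prop_of_zero (hf : TT 2 τ f) (hg : TT 2 τ g) (hh : TT 2 τ h) {p : ℂ}
    (hfp : f p = 0) (hgp : g p = 0) (hhp : h p ≠ 0) (hg0 : ∃ z, g z ≠ 0) : ∃ c, ∀ z, f z = c * g z := by
  refine prop_of_det hf hg ?_ hg0
  have := two_dim hf hg hh p
  rw [hfp, hgp, mul_zero, mul_zero, zero_add, zero_add] at this
  have h2 := (mul_eq_zero.mp this).resolve_right hhp
  linear_combination h2

end TT

end

end Vale.Agent.P097.H831
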