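import Vale.Agent.P097.H831.TT

/-!
# [TZ] zeros of `jacobiTheta₂ · τ`
(helper831, P097)
-/

open Complex MeasureTheory Set Filter Topology intervalIntegral

namespace Vale.Agent.P097.H831

noncomputable section

theorem th_diff {τ : ℂ} (hτ : 0 < τ.im) : Differentiable ℂ (fun z => jacobiTheta₂ z τ) :=
  fun z => differentiableAt_jacobiTheta₂_fst z hτ

theorem th_TT {τ : ℂ} (hτ : 0 < τ.im) : TT 1 τ (fun z => jacobiTheta₂ z τ) where
  diff := th_diff hτ
  per := fun z => jacobiTheta₂_add_left z τ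
  qper := fun z => by
    rw [jacobiTheta₂_add_left']
    congr 2
    push_cast
    ring

theorem fc_th {τ : ℂ} (hτ : 0 < τ.im) : fc (fun z => jacobiTheta₂ z τ) 0 = 1 := by
  have h1 : HasSum (fun n : ℤ => ∫ x in (0:ℝ)..1, jacobiTheta₂_term n (x:ℂ) τ)
      (∫ x in (0:ℝ)..1, jacobiTheta₂ (x:ℂ) τ) := by
    have hs : Summable (fun n : ℤ => ‖jacobiTheta₂_term n 0 τ‖) :=
      ((summable_jacobiTheta₂_term_iff 0 τ).mpr hτ).norm
    refine intervalIntegral.hasSum_integral_of_dominated_convergence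
      (fun n _ => ‖jacobiTheta₂_term n 0 τ‖) ?_ ?_ ?_ ?_ ?_
    · intro n
      refine Continuous.aestronglyMeasurable ?_
      unfold jacobiTheta₂_term
      fun_prop
    · intro n
      refine Eventually.of_forall (fun x _ => ?_)
      rw [norm_jacobiTheta₂_term, norm_jacobiTheta₂_term]
      simp
    · exact Eventually.of_forall (fun x _ => hs)
    · exact intervalIntegrable_const
    · exact Eventually.of_forall (fun x _ => hasSum_jacobiTheta₂_term (x:ℂ) hτ)
  have h2 : ∀ n : ℤ, n ≠ 0 → ∫ x in (0:ℝ)..1, jacobiTheta₂_term n (x:ℂ) τ = 0 := by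
    intro n hn
    have e : ∀ x : ℝ, jacobiTheta₂_term n (x:ℂ) τ
        = cexp (Real.pi * I * n ^ 2 * τ) * cexp ((2 * Real.pi * I * n) * (x:ℂ)) := by
      intro x
      rw [jacobiTheta₂_term, ← Complex.exp_add, add_comm]
    simp only [e]
    rw [intervalIntegral.integral_const_mul, integral_exp_mul_complex]
    · have : cexp (2 * Real.pi * I * n * ((1:ℝ):ℂ)) = 1 := by
        rw [ofReal_one, mul_one, mul_comm]; exact exp_int_mul_two_pi_mul_I n
      rw [this]
      simp
    · simp [Real.pi_ne_zero, hn]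
  have h3 : ∫ x in (0:ℝ)..1, jacobiTheta₂_term 0 (x:ℂ) τ = 1 := by
    simp [jacobiTheta₂_term]
  have h4 : HasSum (fun n : ℤ => ∫ x in (0:ℝ)..1, jacobiTheta₂_term n (x:ℂ) τ) 1 := by
    rw [← h3]
    exact hasSum_single 0 (fun n hn => h2 n hn)
  have h5 := h1.unique h4
  rw [fc, ← h5]
  refine intervalIntegral.integral_congr (fun x _ => ?_)
  simp

theorem th_ne {τ : ℂ} (hτ : 0 < τ.im) : ∃ z, jacobiTheta₂ z τ ≠ 0 := by
  by_contra hcon
  push Not at hcon
  have h := fc_th hτ
  have : fc (fun z => jacobiTheta₂ z τ) 0 = 0 := by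
    rw [fc]; simp [hcon]
  rw [this] at h
  exact one_ne_zero h.symm

/-- the basic zero -/
theorem th_z0 (τ : ℂ) : jacobiTheta₂ ((1 + τ) / 2) τ = 0 := by
  have h1 : jacobiTheta₂ ((1 + τ) / 2) τ = jacobiTheta₂ (-((1 + τ) / 2)) τ :=
    (jacobiTheta₂_neg_left _ _).symm
  have h2 : jacobiTheta₂ ((1 + τ) / 2) τ = - jacobiTheta₂ (-((1 + τ) / 2)) τ := by
    have e : (1 + τ) / 2 = (-((1 + τ) / 2) + τ) + 1 := by ring
    conv_lhs => rw [e]
    rw [jacobiTheta₂_add_left, jacobiTheta₂_add_left']
    have : -Real.pi * I * (τ + 2 * -((1 + τ) / 2)) = Real.pi * I := by ring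
    rw [this, exp_pi_mul_I]; ring
  have h3 : (2:ℂ) * jacobiTheta₂ ((1 + τ) / 2) τ = 0 := by linear_combination h1 + h2
  simpa using h3

theorem mul_shift {τ : ℂ} {f g : ℂ → ℂ} (hf : TT 1 τ f) (hg : TT 1 τ g) (a : ℂ) :
    TT 2 τ (fun z => f (z + a) * g (z - a)) where
  diff := (hf.diff.comp (differentiable_id.add_const a)).mul
    (hg.diff.comp (differentiable_id.sub_const a))
  per := fun z => by
    show f (z + 1 + a) * g (z + 1 - a) = f (z + a) * g (z - a)
    rw [show z + 1 + a = (z + a) + 1 by ring, show z + 1 - a = (z - a) + 1 by ring, hf.per, hg.per]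
  qper := fun z => by
    show f (z + τ + a) * g (z + τ - a) = _ * (f (z + a) * g (z - a))
    rw [show z + τ + a = (z + a) + τ by ring, show z + τ - a = (z - a) + τ by ring, hf.qper, hg.qper,
      mul_mul_mul_comm, ← Complex.exp_add]
    congr 2
    push_cast
    ring

/-- entire functions vanishing on a nonempty open set vanish -/
theorem eq_zero_of_open {f : ℂ → ℂ} (hf : Differentiable ℂ f) {U : Set ℂ} (hU : IsOpen U) {a : ℂ}
    (ha : a ∈ U) (h : ∀ z ∈ U, f z = 0) : ∀ z, f z = 0 := by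
  have han : AnalyticOnNhd ℂ f univ := fun z _ => hf.analyticAt z
  have := han.eqOn_zero_of_preconnected_of_eventuallyEq_zero isPreconnected_univ (mem_univ a)
    (by filter_upwards [hU.mem_nhds ha] with z hz using h z hz)
  exact fun z => this (mem_univ z)

/-- two entire functions, neither identically zero, have a common non-zero -/
theorem common_ne {f g : ℂ → ℂ} (hf : Differentiable ℂ f) (hg : Differentiable ℂ g)
    (hf0 : ∃ z, f z ≠ 0) (hg0 : ∃ z, g z ≠ 0) : ∃ z, f z ≠ 0 ∧ g z ≠ 0 := by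
  by_contra hcon
  push Not at hcon
  have hprod : ∀ z ∈ (univ : Set ℂ), f z * g z = 0 := by
    intro z _
    by_cases h : f z = 0
    · rw [h, zero_mul]
    · rw [hcon z h, mul_zero]
  have hfa : AnalyticOnNhd ℂ f univ := fun z _ => hf.analyticAt z
  have hga : AnalyticOnNhd ℂ g univ := fun z _ => hg.analyticAt z
  rcases hfa.eq_zero_or_eq_zero_of_mul_eq_zero hga hprod isPreconnected_univ with h | h
  · obtain ⟨z, hz⟩ := hf0; exact hz (h z (mem_univ z))
  · obtain ⟨z, hz⟩ := hg0; exact hz (h z (mem_univ z))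

/-- vanishing Wronskian -/
theorem of_wronskian {W g : ℂ → ℂ} (hW : Differentiable ℂ W) (hg : Differentiable ℂ g)
    (hg0 : ∃ z, g z ≠ 0) (hwr : ∀ z, deriv W z * g z = W z * deriv g z) :
    ∃ C, ∀ z, W z = C * g z := by
  obtain ⟨a, ha⟩ := hg0
  have hopen : IsOpen {z | g z ≠ 0} := isOpen_ne_fun hg.continuous continuous_const
  obtain ⟨r, hr, hball⟩ := Metric.isOpen_iff.mp hopen a ha
  refine ⟨W a / g a, ?_⟩
  have hq : ∀ z ∈ Metric.ball a r, W z / g z = W a / g a := by
    intro z hz
    refine (convex_ball a r).is_const_of_fderivWithin_eq_zero (𝕜 := ℂ) (f := fun z => W z / g z) ?_ ?_ hz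
      (Metric.mem_ball_self hr)
    · intro w hw
      exact ((hW w).div (hg w) (hball hw)).differentiableWithinAt
    · intro w hw
      have h1 : HasDerivAt (fun z => W z / g z) 0 w := by
        have := (hW w).hasDerivAt.div (hg w).hasDerivAt (hball hw)
        rw [hwr w, sub_self, zero_div] at this
        exact this
      have h2 := h1.hasFDerivAt.hasFDerivWithinAt (s := Metric.ball a r)
      rw [h2.fderivWithin (Metric.isOpen_ball.uniqueDiffWithinAt hw)]
      ext; simp
  have hd : Differentiable ℂ (fun z => W z - W a / g a * g z) := hW.sub (hg.const_mul _)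
  have := eq_zero_of_open hd Metric.isOpen_ball (Metric.mem_ball_self hr) (fun z hz => by
    have h1 := hq z hz
    have h2 : g z ≠ 0 := hball hz
    have h3 : W z = W a / g a * g z := by rw [← h1]; field_simp
    rw [h3, sub_self])
  intro z
  exact sub_eq_zero.mp (this z)

end

end Vale.Agent.P097.H831
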