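import Vale.Agent.P097.H831.Simple
import Vale.Agent.P097.LR.EDefs

/-!
# [TZ]
(helper831, P097)
-/

namespace Vale.Agent.P097.H831

/-- [TZ] the zeros of Mathlib's theta function are exactly `(1 + τ)/2 + ℤ + τℤ`, and simple. -/
theorem tz : Vale.Agent.P097.LR.TZ := by
  intro τ hτ
  refine ⟨fun z => th_zero_iff hτ, fun z hz => ?_⟩
  rw [← (hasDerivAt_jacobiTheta₂_fst z hτ).deriv]
  exact th_simple hτ hz

end Vale.Agent.P097.H831
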