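import Vale.Agent.P097.H831.TZ

/-!
# [TZ] the zeros of `jacobiTheta₂ · τ` are exactly `(1+τ)/2 + m + nτ`, and they are simple
(helper831, P097)
-/

open Complex MeasureTheory Set Filter Topology intervalIntegral

namespace Vale.Agent.P097.H831

noncomputable section

variable {τ : ℂ}

theorem th_shift_ne (hτ : 0 < τ.im) (a : ℂ) : ∃ z, jacobiTheta₂ (z + a) τ ≠ 0 := by
  obtain ⟨z, hz⟩ := th_ne hτ
  exact ⟨z - a, by rwa [sub_add_cancel]⟩

theorem th_shift_ne' (hτ : 0 < τ.im) (a : ℂ) : ∃ z, jacobiTheta₂ (z - a) τ ≠ 0 := by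
  obtain ⟨z, hz⟩ := th_ne hτ
  exact ⟨z + a, by rwa [add_sub_cancel_right]⟩

theorem th_shift_diff (hτ : 0 < τ.im) (a : ℂ) : Differentiable ℂ (fun z => jacobiTheta₂ (z + a) τ) :=
  (th_diff hτ).comp (differentiable_id.add_const a)

theorem th_shift_diff' (hτ : 0 < τ.im) (a : ℂ) : Differentiable ℂ (fun z => jacobiTheta₂ (z - a) τ) :=
  (th_diff hτ).comp (differentiable_id.sub_const a)

/-- two zeros: the addition-type identity with a constant depending only on `v - u` -/
theorem add_id (hτ : 0 < τ.im) {z0 z1 : ℂ} (h0 : jacobiTheta₂ z0 τ = 0) (h1 : jacobiTheta₂ z1 τ = 0)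
    {p : ℂ} (hp : jacobiTheta₂ p τ ≠ 0) : ∃ c, ∀ z,
    jacobiTheta₂ (z + (z1 - p)) τ * jacobiTheta₂ (z - (z1 - p)) τ
      = c * (jacobiTheta₂ (z + (z0 - p)) τ * jacobiTheta₂ (z - (z0 - p)) τ) := by
  have hT := th_TT hτ
  refine TT.prop_of_zero (p := p) (mul_shift hT hT (z1 - p)) (mul_shift hT hT (z0 - p))
    (mul_shift hT hT 0) ?_ ?_ ?_ ?_
  · show jacobiTheta₂ (p + (z1 - p)) τ * _ = 0
    rw [show p + (z1 - p) = z1 by ring, h1, zero_mul]
  · show jacobiTheta₂ (p + (z0 - p)) τ * _ = 0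
    rw [show p + (z0 - p) = z0 by ring, h0, zero_mul]
  · show jacobiTheta₂ (p + 0) τ * jacobiTheta₂ (p - 0) τ ≠ 0
    rw [add_zero, sub_zero]; exact mul_ne_zero hp hp
  · obtain ⟨z, hz1, hz2⟩ := common_ne (th_shift_diff hτ (z0 - p)) (th_shift_diff' hτ (z0 - p))
      (th_shift_ne hτ _) (th_shift_ne' hτ _)
    exact ⟨z, mul_ne_zero hz1 hz2⟩

theorem cross_id (hτ : 0 < τ.im) {z0 z1 : ℂ} (h0 : jacobiTheta₂ z0 τ = 0) (h1 : jacobiTheta₂ z1 τ = 0)
    (u v s : ℂ) :
    jacobiTheta₂ (u + z1) τ * jacobiTheta₂ (v - z1) τ * (jacobiTheta₂ (u + s + z0) τ * jacobiTheta₂ (v + s - z0) τ)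
      = jacobiTheta₂ (u + s + z1) τ * jacobiTheta₂ (v + s - z1) τ * (jacobiTheta₂ (u + z0) τ * jacobiTheta₂ (v - z0) τ) := by
  -- first for theta((v-u)/2) ≠ 0
  have key : ∀ v : ℂ, jacobiTheta₂ ((v - u) / 2) τ ≠ 0 →
      jacobiTheta₂ (u + z1) τ * jacobiTheta₂ (v - z1) τ * (jacobiTheta₂ (u + s + z0) τ * jacobiTheta₂ (v + s - z0) τ)
      - jacobiTheta₂ (u + s + z1) τ * jacobiTheta₂ (v + s - z1) τ * (jacobiTheta₂ (u + z0) τ * jacobiTheta₂ (v - z0) τ) = 0 := by
    intro v hv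
    obtain ⟨c, hc⟩ := add_id hτ h0 h1 hv
    have e1 := hc ((u + v) / 2)
    have e2 := hc ((u + v) / 2 + s)
    rw [show (u + v) / 2 + (z1 - (v - u) / 2) = u + z1 by ring,
      show (u + v) / 2 - (z1 - (v - u) / 2) = v - z1 by ring,
      show (u + v) / 2 + (z0 - (v - u) / 2) = u + z0 by ring,
      show (u + v) / 2 - (z0 - (v - u) / 2) = v - z0 by ring] at e1
    rw [show (u + v) / 2 + s + (z1 - (v - u) / 2) = u + s + z1 by ring,
      show (u + v) / 2 + s - (z1 - (v - u) / 2) = v + s - z1 by ring,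
      show (u + v) / 2 + s + (z0 - (v - u) / 2) = u + s + z0 by ring,
      show (u + v) / 2 + s - (z0 - (v - u) / 2) = v + s - z0 by ring] at e2
    rw [e1, e2]; ring
  have hd : Differentiable ℂ (fun v => jacobiTheta₂ (u + z1) τ * jacobiTheta₂ (v - z1) τ * (jacobiTheta₂ (u + s + z0) τ * jacobiTheta₂ (v + s - z0) τ)
      - jacobiTheta₂ (u + s + z1) τ * jacobiTheta₂ (v + s - z1) τ * (jacobiTheta₂ (u + z0) τ * jacobiTheta₂ (v - z0) τ)) := by
    have d1 := th_shift_diff' hτ z1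
    have d2 := th_shift_diff' hτ z0
    have d3 : Differentiable ℂ (fun v => jacobiTheta₂ (v + s - z0) τ) :=
      d2.comp (differentiable_id.add_const s)
    have d4 : Differentiable ℂ (fun v => jacobiTheta₂ (v + s - z1) τ) :=
      d1.comp (differentiable_id.add_const s)
    exact ((d1.const_mul _).mul (d3.const_mul _)).sub ((d4.const_mul _).mul (d2.const_mul _))
  have hd2 : Differentiable ℂ (fun v => jacobiTheta₂ ((v - u) / 2) τ) :=
    (th_diff hτ).comp ((differentiable_id.sub_const u).div_const 2)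
  obtain ⟨w, hw⟩ := th_ne hτ
  have := eq_zero_of_open hd (U := {v | jacobiTheta₂ ((v - u) / 2) τ ≠ 0})
    (isOpen_ne_fun hd2.continuous continuous_const) (a := 2 * w + u)
    (by show jacobiTheta₂ ((2 * w + u - u) / 2) τ ≠ 0
        rw [show (2 * w + u - u) / 2 = w by ring]; exact hw)
    (fun v hv => key v hv) v
  exact sub_eq_zero.mp this

theorem hd_shift (hτ : 0 < τ.im) (a : ℂ) (u : ℂ) :
    HasDerivAt (fun z => jacobiTheta₂ (z + a) τ) (deriv (fun z => jacobiTheta₂ z τ) (u + a)) u :=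
  ((th_diff hτ (u + a)).hasDerivAt).comp_add_const u a

/-- **Zeros of the theta function.** -/
theorem th_zero (hτ : 0 < τ.im) {z1 : ℂ} (h1 : jacobiTheta₂ z1 τ = 0) :
    ∃ m n : ℤ, z1 = (1 + τ) / 2 + m + n * τ := by
  set z0 : ℂ := (1 + τ) / 2 with hz0
  have h0 : jacobiTheta₂ z0 τ = 0 := th_z0 τ
  set D : ℂ → ℂ := deriv (fun z => jacobiTheta₂ z τ) with hD
  obtain ⟨v, hv1, hv0⟩ := common_ne (th_shift_diff' hτ z1) (th_shift_diff' hτ z0)
    (th_shift_ne' hτ _) (th_shift_ne' hτ _)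
  set κ : ℂ := D (v - z1) / jacobiTheta₂ (v - z1) τ - D (v - z0) / jacobiTheta₂ (v - z0) τ with hκ
  have hwr : ∀ u : ℂ, jacobiTheta₂ (u + z1) τ * D (u + z0) - D (u + z1) * jacobiTheta₂ (u + z0) τ
      = κ * jacobiTheta₂ (u + z1) τ * jacobiTheta₂ (u + z0) τ := by
    intro u
    -- derivative in s at 0 of the cross identity
    have a1 : HasDerivAt (fun s : ℂ => jacobiTheta₂ (u + s + z0) τ) (D (u + z0)) 0 := by
      have h : HasDerivAt (fun s : ℂ => jacobiTheta₂ (s + (u + z0)) τ) (D (0 + (u + z0))) 0 :=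
        hd_shift hτ (u + z0) 0
      rw [zero_add] at h
      refine h.congr_of_eventuallyEq (Eventually.of_forall (fun s => ?_))
      show jacobiTheta₂ (u + s + z0) τ = jacobiTheta₂ (s + (u + z0)) τ
      congr 1; ring
    have a2 : HasDerivAt (fun s : ℂ => jacobiTheta₂ (v + s - z0) τ) (D (v - z0)) 0 := by
      have h : HasDerivAt (fun s : ℂ => jacobiTheta₂ (s + (v - z0)) τ) (D (0 + (v - z0))) 0 :=
        hd_shift hτ (v - z0) 0
      rw [zero_add] at h
      refine h.congr_of_eventuallyEq (Eventually.of_forall (fun s => ?_))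
      show jacobiTheta₂ (v + s - z0) τ = jacobiTheta₂ (s + (v - z0)) τ
      congr 1; ring
    have a3 : HasDerivAt (fun s : ℂ => jacobiTheta₂ (u + s + z1) τ) (D (u + z1)) 0 := by
      have h : HasDerivAt (fun s : ℂ => jacobiTheta₂ (s + (u + z1)) τ) (D (0 + (u + z1))) 0 :=
        hd_shift hτ (u + z1) 0
      rw [zero_add] at h
      refine h.congr_of_eventuallyEq (Eventually.of_forall (fun s => ?_))
      show jacobiTheta₂ (u + s + z1) τ = jacobiTheta₂ (s + (u + z1)) τ
      congr 1; ring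
    have a4 : HasDerivAt (fun s : ℂ => jacobiTheta₂ (v + s - z1) τ) (D (v - z1)) 0 := by
      have h : HasDerivAt (fun s : ℂ => jacobiTheta₂ (s + (v - z1)) τ) (D (0 + (v - z1))) 0 :=
        hd_shift hτ (v - z1) 0
      rw [zero_add] at h
      refine h.congr_of_eventuallyEq (Eventually.of_forall (fun s => ?_))
      show jacobiTheta₂ (v + s - z1) τ = jacobiTheta₂ (s + (v - z1)) τ
      congr 1; ring
    have L := (a1.mul a2).const_mul (jacobiTheta₂ (u + z1) τ * jacobiTheta₂ (v - z1) τ)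
    have R := (a3.mul a4).mul_const (jacobiTheta₂ (u + z0) τ * jacobiTheta₂ (v - z0) τ)
    have hfun : (fun s : ℂ => jacobiTheta₂ (u + z1) τ * jacobiTheta₂ (v - z1) τ *
        (jacobiTheta₂ (u + s + z0) τ * jacobiTheta₂ (v + s - z0) τ))
        = fun s : ℂ => (jacobiTheta₂ (u + s + z1) τ * jacobiTheta₂ (v + s - z1) τ) *
          (jacobiTheta₂ (u + z0) τ * jacobiTheta₂ (v - z0) τ) :=
      funext (fun s => cross_id hτ h0 h1 u v s)
    have L' : HasDerivAt (fun s : ℂ => jacobiTheta₂ (u + z1) τ * jacobiTheta₂ (v - z1) τ *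
        (jacobiTheta₂ (u + s + z0) τ * jacobiTheta₂ (v + s - z0) τ)) _ 0 := L
    rw [hfun] at L'
    have huniq := L'.unique R
    simp only [add_zero] at huniq
    rw [hκ]
    field_simp
    linear_combination huniq
  -- the exponential multiple
  have hWd : Differentiable ℂ (fun u => cexp (κ * u) * jacobiTheta₂ (u + z1) τ) :=
    (by fun_prop : Differentiable ℂ (fun u : ℂ => cexp (κ * u))).mul (th_shift_diff hτ z1)
  obtain ⟨C, hC⟩ := of_wronskian hWd (th_shift_diff hτ z0) (th_shift_ne hτ z0) (fun u => by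
    have e1 : HasDerivAt (fun u => cexp (κ * u) * jacobiTheta₂ (u + z1) τ)
        (cexp (κ * u) * κ * jacobiTheta₂ (u + z1) τ + cexp (κ * u) * D (u + z1)) u := by
      have := ((hasDerivAt_id u).const_mul κ).cexp
      simp only [mul_one] at this
      exact this.mul (hd_shift hτ z1 u)
    have e2 := hd_shift hτ z0 u
    rw [e1.deriv, e2.deriv]
    linear_combination (-cexp (κ * u)) * hwr u)
  obtain ⟨u, hu⟩ := th_shift_ne hτ z1
  -- period 1
  have hκ1 : cexp κ = 1 := by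
    have e1 := hC (u + 1)
    rw [show u + 1 + z1 = (u + z1) + 1 by ring, show u + 1 + z0 = (u + z0) + 1 by ring,
      jacobiTheta₂_add_left, jacobiTheta₂_add_left, ← hC u, mul_add, mul_one, Complex.exp_add] at e1
    have hne : cexp (κ * u) * jacobiTheta₂ (u + z1) τ ≠ 0 := mul_ne_zero (Complex.exp_ne_zero _) hu
    have : (cexp κ - 1) * (cexp (κ * u) * jacobiTheta₂ (u + z1) τ) = 0 := by linear_combination e1
    have h2 := (mul_eq_zero.mp this).resolve_right hne
    linear_combination h2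
  obtain ⟨n, hn⟩ := Complex.exp_eq_one_iff.mp hκ1
  have hτ1 : cexp (κ * τ - 2 * Real.pi * I * (z1 - z0)) = 1 := by
    have e1 := hC (u + τ)
    rw [show u + τ + z1 = (u + z1) + τ by ring, show u + τ + z0 = (u + z0) + τ by ring,
      jacobiTheta₂_add_left', jacobiTheta₂_add_left'] at e1
    have e2 := hC u
    have hne : cexp (κ * u) * jacobiTheta₂ (u + z1) τ ≠ 0 := mul_ne_zero (Complex.exp_ne_zero _) hu
    have e3 : cexp (κ * (u + τ)) * (cexp (-Real.pi * I * (τ + 2 * (u + z1))) * jacobiTheta₂ (u + z1) τ)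
        = cexp (-Real.pi * I * (τ + 2 * (u + z0))) * (cexp (κ * u) * jacobiTheta₂ (u + z1) τ) := by
      rw [e1, e2]; ring
    have e4 : cexp (κ * (u + τ)) * cexp (-Real.pi * I * (τ + 2 * (u + z1)))
        = cexp (κ * τ - 2 * Real.pi * I * (z1 - z0)) *
          (cexp (-Real.pi * I * (τ + 2 * (u + z0))) * cexp (κ * u)) := by
      rw [← Complex.exp_add, ← Complex.exp_add, ← Complex.exp_add]
      congr 1; ring
    have e5 : (cexp (κ * τ - 2 * Real.pi * I * (z1 - z0)) - 1) *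
        (cexp (-Real.pi * I * (τ + 2 * (u + z0))) * (cexp (κ * u) * jacobiTheta₂ (u + z1) τ)) = 0 := by
      linear_combination e3 - jacobiTheta₂ (u + z1) τ * e4
    have h2 := (mul_eq_zero.mp e5).resolve_right (mul_ne_zero (Complex.exp_ne_zero _) hne)
    linear_combination h2
  obtain ⟨m, hm⟩ := Complex.exp_eq_one_iff.mp hτ1
  refine ⟨-m, n, ?_⟩
  rw [hn] at hm
  have hpi : (2 * Real.pi * I : ℂ) ≠ 0 := by simp [Real.pi_ne_zero]
  have : (2 * Real.pi * I : ℂ) * (n * τ - (z1 - z0) - m) = 0 := by linear_combination hm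
  have h2 := (mul_eq_zero.mp this).resolve_left hpi
  push_cast
  linear_combination -h2

theorem th_zero_iff (hτ : 0 < τ.im) {z : ℂ} :
    jacobiTheta₂ z τ = 0 ↔ ∃ m n : ℤ, z = (1 + τ) / 2 + m + n * τ := by
  refine ⟨th_zero hτ, ?_⟩
  rintro ⟨m, n, rfl⟩
  -- invariance of the zero set under the lattice
  have p1 : ∀ (w : ℂ) (k : ℤ), jacobiTheta₂ w τ = 0 → jacobiTheta₂ (w + k) τ = 0 := by
    intro w k hw
    induction k using Int.induction_on with
    | zero => simpa using hw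
    | succ i ih =>
        push_cast at ih ⊢
        rw [← add_assoc, jacobiTheta₂_add_left]; exact ih
    | pred i ih =>
        push_cast at ih ⊢
        rw [← jacobiTheta₂_add_left]
        convert ih using 2; ring
  have p2 : ∀ (w : ℂ) (k : ℤ), jacobiTheta₂ w τ = 0 → jacobiTheta₂ (w + k * τ) τ = 0 := by
    intro w k hw
    induction k using Int.induction_on with
    | zero => simpa using hw
    | succ i ih =>
        push_cast at ih ⊢
        rw [add_mul, one_mul, ← add_assoc, jacobiTheta₂_add_left', ih, mul_zero]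
    | pred i ih =>
        push_cast at ih ⊢
        have e := jacobiTheta₂_add_left' (w + (-(i:ℂ) - 1) * τ) τ
        rw [show w + (-(i:ℂ) - 1) * τ + τ = w + -(i:ℂ) * τ by ring, ih] at e
        exact (mul_eq_zero.mp e.symm).resolve_left (Complex.exp_ne_zero _)
  exact p2 _ n (p1 _ m (th_z0 τ))

end

end Vale.Agent.P097.H831
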